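import Mathlib

namespace P243

open MeasureTheory Set

/-- existence of a supporting line of a concave function at an interior point -/
theorem exists_support (a b : ℝ) (f : ℝ → ℝ) (hf : ConcaveOn ℝ (Icc a b) f)
    (x : ℝ) (hxa : a < x) (hxb : x < b) :
    ∃ m : ℝ, ∀ y ∈ Icc a b, f y ≤ f x + m * (y - x) := by
  have hx : x ∈ Icc a b := ⟨hxa.le, hxb.le⟩
  have hleft : a ∈ Icc a b := ⟨le_rfl, (hxa.trans hxb).le⟩
  have hright : b ∈ Icc a b := ⟨(hxa.trans hxb).le, le_rfl⟩
  let S : Set ℝ := (fun z => (f z - f x) / (z - x)) '' Ioc x b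
  have hSne : S.Nonempty := ⟨_, b, ⟨hxb, le_rfl⟩, rfl⟩
  have hbd : ∀ y ∈ Icc a b, y < x → ∀ s ∈ S, s ≤ (f x - f y) / (x - y) := by
    rintro y hy hyx s ⟨z, hz, rfl⟩
    exact hf.slope_anti_adjacent hy ⟨hx.1.trans hz.1.le, hz.2⟩ hyx hz.1
  have hBdd : BddAbove S := ⟨(f x - f a) / (x - a), fun s hs => hbd a hleft hxa s hs⟩
  refine ⟨sSup S, fun y hy => ?_⟩
  rcases lt_trichotomy y x with h | h | h
  · have h1 : sSup S ≤ (f x - f y) / (x - y) := csSup_le hSne (hbd y hy h)
    rw [le_div_iff₀ (by linarith)] at h1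
    linarith
  · subst h; simp
  · have h1 : (f y - f x) / (y - x) ≤ sSup S := le_csSup hBdd ⟨y, ⟨h, hy.2⟩, rfl⟩
    rw [div_le_iff₀ (by linarith)] at h1
    linarith

theorem int_lin (a b : ℝ) (hab : a ≤ b) (c m x : ℝ) :
    ∫ y in Icc a b, (c + m * (y - x)) = (b - a) * (c + m * ((a + b) / 2 - x)) := by
  rw [integral_Icc_eq_integral_Ioc, ← intervalIntegral.integral_of_le hab]
  rw [intervalIntegral.integral_add (by simp) (by
    apply Continuous.intervalIntegrable; fun_prop)]
  rw [intervalIntegral.integral_const_mul, intervalIntegral.integral_sub (by simp) (by simp)]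
  simp only [intervalIntegral.integral_const, smul_eq_mul, integral_id]
  ring

/-- lower bound of a nonnegative concave function by its mean (supporting line at `x`) -/
theorem conc (a b : ℝ) (hab : a < b) (f : ℝ → ℝ) (hf : ConcaveOn ℝ (Icc a b) f)
    (h0 : ∀ x ∈ Icc a b, 0 ≤ f x) (x : ℝ) (hx : x ∈ Icc a b) :
    2 * min (x - a) (b - x) / (b - a) ^ 2 * ∫ y in Icc a b, f y ≤ f x := by
  have hba : 0 < b - a := by linarith
  have hI0 : 0 ≤ ∫ y in Icc a b, f y := setIntegral_nonneg measurableSet_Icc h0
  by_cases hint : IntegrableOn f (Icc a b)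
  swap
  · rw [integral_undef hint, mul_zero]
    exact h0 x hx
  rcases eq_or_lt_of_le hx.1 with hxa | hxa
  · subst hxa
    rw [sub_self, min_eq_left hba.le]
    simpa using h0 a hx
  rcases eq_or_lt_of_le hx.2 with hxb | hxb
  · subst hxb
    rw [sub_self, min_eq_right (by linarith)]
    simpa using h0 x hx
  obtain ⟨m, hm⟩ := exists_support a b f hf x hxa hxb
  have hle : ∫ y in Icc a b, f y ≤ (b - a) * (f x + m * ((a + b) / 2 - x)) := by
    rw [← int_lin a b hab.le]
    apply setIntegral_mono_on hint _ measurableSet_Icc hm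
    apply Continuous.integrableOn_Icc
    fun_prop
  have ha := hm a ⟨le_rfl, hab.le⟩
  have hb := hm b ⟨hab.le, le_rfl⟩
  have ha0 := h0 a ⟨le_rfl, hab.le⟩
  have hb0 := h0 b ⟨hab.le, le_rfl⟩
  rw [div_mul_eq_mul_div, div_le_iff₀ (by positivity)]
  rcases le_total (x - a) (b - x) with h | h
  · rw [min_eq_left h]
    have h1 : m * (x - a) ≤ f x := by nlinarith
    have hc : 0 ≤ (a + b) / 2 - x := by linarith
    have h2 : (x - a) * (m * ((a + b) / 2 - x)) ≤ f x * ((a + b) / 2 - x) := by nlinarith
    calc 2 * (x - a) * ∫ y in Icc a b, f y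
        ≤ 2 * (x - a) * ((b - a) * (f x + m * ((a + b) / 2 - x))) := by
          apply mul_le_mul_of_nonneg_left hle (by linarith)
      _ = 2 * (b - a) * ((x - a) * f x + (x - a) * (m * ((a + b) / 2 - x))) := by ring
      _ ≤ 2 * (b - a) * ((x - a) * f x + f x * ((a + b) / 2 - x)) := by
          apply mul_le_mul_of_nonneg_left _ (by linarith)
          linarith
      _ = f x * (b - a) ^ 2 := by ring
  · rw [min_eq_right h]
    have h1 : -(m * (b - x)) ≤ f x := by nlinarith
    have hc : 0 ≤ x - (a + b) / 2 := by linarith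
    have h2 : (b - x) * (m * ((a + b) / 2 - x)) ≤ f x * (x - (a + b) / 2) := by nlinarith
    calc 2 * (b - x) * ∫ y in Icc a b, f y
        ≤ 2 * (b - x) * ((b - a) * (f x + m * ((a + b) / 2 - x))) := by
          apply mul_le_mul_of_nonneg_left hle (by linarith)
      _ = 2 * (b - a) * ((b - x) * f x + (b - x) * (m * ((a + b) / 2 - x))) := by ring
      _ ≤ 2 * (b - a) * ((b - x) * f x + f x * (x - (a + b) / 2)) := by
          apply mul_le_mul_of_nonneg_left _ (by linarith)
          linarith
      _ = f x * (b - a) ^ 2 := by ring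

theorem int_min (a b : ℝ) (hab : a < b) :
    ∫ x in Icc a b, 2 * min (x - a) (b - x) / (b - a) ^ 2 = 1 / 2 := by
  have hba : 0 < b - a := by linarith
  have hcont : Continuous (fun x : ℝ => 2 * min (x - a) (b - x) / (b - a) ^ 2) := by fun_prop
  rw [integral_Icc_eq_integral_Ioc, ← intervalIntegral.integral_of_le hab.le]
  rw [← intervalIntegral.integral_add_adjacent_intervals (b := (a + b) / 2)
    (hcont.intervalIntegrable _ _) (hcont.intervalIntegrable _ _)]
  have e1 : ∫ x in a..(a + b) / 2, 2 * min (x - a) (b - x) / (b - a) ^ 2 =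
      ∫ x in a..(a + b) / 2, (2 / (b - a) ^ 2) * (x - a) := by
    apply intervalIntegral.integral_congr
    intro x hx
    rw [uIcc_of_le (by linarith)] at hx
    have : min (x - a) (b - x) = x - a := min_eq_left (by linarith [hx.2])
    simp only [this]
    ring
  have e2 : ∫ x in (a + b) / 2..b, 2 * min (x - a) (b - x) / (b - a) ^ 2 =
      ∫ x in (a + b) / 2..b, (2 / (b - a) ^ 2) * (b - x) := by
    apply intervalIntegral.integral_congr
    intro x hx
    rw [uIcc_of_le (by linarith)] at hx
    have : min (x - a) (b - x) = b - x := min_eq_right (by linarith [hx.1])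
    simp only [this]
    ring
  rw [e1, e2, intervalIntegral.integral_const_mul, intervalIntegral.integral_const_mul,
    intervalIntegral.integral_sub (by simp) (by simp),
    intervalIntegral.integral_sub (by simp) (by simp)]
  simp only [intervalIntegral.integral_const, smul_eq_mul, integral_id]
  field_simp
  ring

end P243
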