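import Mathlib

namespace P243

open MeasureTheory Set

/-- measure of the parameters for which an affine function lies in `A` -/
theorem seg_meas (p q : ℝ) (A : Set ℝ) (hA : MeasurableSet A) :
    |q - p| * (volume {τ : ℝ | (0 ≤ τ ∧ τ ≤ 1) ∧ p + τ * (q - p) ∈ A}).toReal
      = (volume (A ∩ uIcc p q)).toReal := by
  rcases eq_or_ne p q with h | h
  · subst h
    have h0 : volume (A ∩ uIcc p p) = 0 := measure_mono_null inter_subset_right (by simp)
    rw [h0]
    simp
  · have hd : q - p ≠ 0 := sub_ne_zero.2 h.symm
    have hset : {τ : ℝ | (0 ≤ τ ∧ τ ≤ 1) ∧ p + τ * (q - p) ∈ A}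
        = (fun τ => τ * (q - p)) ⁻¹' ((fun x => p + x) ⁻¹' (A ∩ uIcc p q)) := by
      ext τ
      show ((0 ≤ τ ∧ τ ≤ 1) ∧ p + τ * (q - p) ∈ A) ↔
        (p + τ * (q - p) ∈ A ∧ p + τ * (q - p) ∈ uIcc p q)
      have h1 : p + τ * (q - p) ∈ uIcc p q ↔ (0 ≤ τ ∧ τ ≤ 1) := by
        rcases lt_or_gt_of_ne h with hpq | hpq
        · rw [uIcc_of_le hpq.le, mem_Icc]
          constructor
          · rintro ⟨h1, h2⟩
            constructor
            · by_contra hcon
              nlinarith
            · by_contra hcon
              nlinarith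
          · rintro ⟨h1, h2⟩
            constructor <;> nlinarith
        · rw [uIcc_of_ge hpq.le, mem_Icc]
          constructor
          · rintro ⟨h1, h2⟩
            constructor
            · by_contra hcon
              nlinarith
            · by_contra hcon
              nlinarith
          · rintro ⟨h1, h2⟩
            constructor <;> nlinarith
      tauto
    rw [hset, Real.volume_preimage_mul_right hd, measure_preimage_add, ENNReal.toReal_mul,
      ENNReal.toReal_ofReal (abs_nonneg _), ← mul_assoc, ← abs_mul, mul_inv_cancel₀ hd, abs_one,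
      one_mul]

end P243
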