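import Mathlib
import Vale.Agent.P243.Seg

namespace P243

open MeasureTheory Set

/-- the quadrilateral -/
def quad (s t l r : ℝ) : Set (ℝ × ℝ) := convexHull ℝ {(0, l), (1, r), (s, 0), (t, 1)}

/-- one segment inside the quadrilateral -/
theorem seg_le (s t l r : ℝ) (A C : Set ℝ) (hA : MeasurableSet A) (hC : MeasurableSet C)
    (hdis : ∀ p ∈ quad s t l r, ¬ (p.1 ∈ A ∧ p.2 ∈ C)) (P Q : ℝ × ℝ)
    (hP : P ∈ ({(0, l), (1, r), (s, 0), (t, 1)} : Set (ℝ × ℝ)))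
    (hQ : Q ∈ ({(0, l), (1, r), (s, 0), (t, 1)} : Set (ℝ × ℝ))) :
    (volume {τ : ℝ | (0 ≤ τ ∧ τ ≤ 1) ∧ P.1 + τ * (Q.1 - P.1) ∈ A}).toReal
      + (volume {τ : ℝ | (0 ≤ τ ∧ τ ≤ 1) ∧ P.2 + τ * (Q.2 - P.2) ∈ C}).toReal ≤ 1 := by
  set X : Set ℝ := {τ : ℝ | (0 ≤ τ ∧ τ ≤ 1) ∧ P.1 + τ * (Q.1 - P.1) ∈ A} with hX
  set Y : Set ℝ := {τ : ℝ | (0 ≤ τ ∧ τ ≤ 1) ∧ P.2 + τ * (Q.2 - P.2) ∈ C} with hY
  have hXsub : X ⊆ Icc 0 1 := fun τ h => ⟨h.1.1, h.1.2⟩
  have hYsub : Y ⊆ Icc 0 1 := fun τ h => ⟨h.1.1, h.1.2⟩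
  have hYm : MeasurableSet Y := by
    have h1 : Measurable (fun τ : ℝ => P.2 + τ * (Q.2 - P.2)) := by fun_prop
    exact (measurableSet_Icc (a := (0:ℝ)) (b := 1)).inter (h1 hC)
  have hXY : Disjoint X Y := by
    rw [Set.disjoint_left]
    rintro τ ⟨⟨h0, h1⟩, hx⟩ ⟨_, hy⟩
    have hmem : P + τ • (Q - P) ∈ quad s t l r := by
      have hP' : P ∈ quad s t l r := subset_convexHull ℝ _ hP
      have hQ' : Q ∈ quad s t l r := subset_convexHull ℝ _ hQ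
      exact (convex_convexHull ℝ _).add_smul_sub_mem hP' hQ' ⟨h0, h1⟩
    exact hdis _ hmem ⟨by simpa using hx, by simpa using hy⟩
  have hXf : volume X ≠ ⊤ := (lt_of_le_of_lt (measure_mono hXsub) (by simp)).ne
  have hYf : volume Y ≠ ⊤ := (lt_of_le_of_lt (measure_mono hYsub) (by simp)).ne
  rw [← ENNReal.toReal_add hXf hYf, ← measure_union hXY hYm]
  have h1 : volume (X ∪ Y) ≤ 1 := by
    refine le_trans (measure_mono (union_subset hXsub hYsub)) ?_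
    simp
  exact ENNReal.toReal_le_of_le_ofReal zero_le_one (by simpa using h1)

/-- additivity of the measure over adjacent intervals -/
theorem split_meas (A : Set ℝ) (hA : MeasurableSet A) (p q w : ℝ) (h1 : p ≤ q) (h2 : q ≤ w) :
    (volume (A ∩ Icc p w)).toReal
      = (volume (A ∩ Icc p q)).toReal + (volume (A ∩ Icc q w)).toReal := by
  have hf : ∀ x y : ℝ, volume (A ∩ Icc x y) ≠ ⊤ := fun x y =>
    (lt_of_le_of_lt (measure_mono inter_subset_right) (by simp)).ne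
  rw [← ENNReal.toReal_add (hf _ _) (hf _ _)]
  congr 1
  have e1 : volume (A ∩ Icc q w) = volume (A ∩ Ioc q w) :=
    measure_congr ((Filter.EventuallyEq.refl _ A).inter Ioc_ae_eq_Icc.symm)
  rw [e1, ← measure_union]
  · congr 1
    rw [← inter_union_distrib_left, Icc_union_Ioc_eq_Icc h1 h2]
  · rw [Set.disjoint_left]
    rintro x ⟨_, hx⟩ ⟨_, hx2⟩
    exact absurd hx2.1 (not_lt.2 hx.2)
  · exact hA.inter measurableSet_Ioc

/-- Coupling on five segments. `A1 = s(1-l)`, `A2 = l t`, `B1 = (1-t) r`, `B2 = (1-r)(1-s)`;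
masses `m1 = A1(B1+B2)t` on `(0,l)-(t,1)`, `m2 = (A1+A2)B2(1-t)` on `(t,1)-(1,r)`,
`m3 = B1(A1+A2)(1-s)` on `(1,r)-(s,0)`, `m4 = A2(B1+B2)s` on `(s,0)-(0,l)`,
`w = (A2 B2 - A1 B1)(t-s)` on `(s,0)-(t,1)`; both marginals are `D = (A1+A2)(B1+B2)` times
Lebesgue measure on `[0,1]`. -/
theorem coup (s t l r : ℝ) (hs : 0 < s) (hst : s ≤ t) (ht : t < 1) (hl : 0 < l) (hl1 : l < 1)
    (hr : 0 < r) (hr1 : r < 1)
    (hc : s * (1 - l) * ((1 - t) * r) ≤ l * t * ((1 - r) * (1 - s)))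
    (A C : Set ℝ) (hA : MeasurableSet A) (hC : MeasurableSet C) (hA1 : A ⊆ Icc 0 1)
    (hC1 : C ⊆ Icc 0 1) (hdis : ∀ p ∈ quad s t l r, ¬ (p.1 ∈ A ∧ p.2 ∈ C)) :
    (volume A).toReal + (volume C).toReal ≤ 1 := by
  have L := seg_le s t l r A C hA hC hdis
  have L1 := L (0, l) (t, 1) (by simp) (by simp)
  have L2 := L (t, 1) (1, r) (by simp) (by simp)
  have L3 := L (1, r) (s, 0) (by simp) (by simp)
  have L4 := L (s, 0) (0, l) (by simp) (by simp)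
  have L5 := L (s, 0) (t, 1) (by simp) (by simp)
  have X1 := seg_meas 0 t A hA
  have X2 := seg_meas t 1 A hA
  have X3 := seg_meas 1 s A hA
  have X4 := seg_meas s 0 A hA
  have X5 := seg_meas s t A hA
  have Y1 := seg_meas l 1 C hC
  have Y2 := seg_meas 1 r C hC
  have Y3 := seg_meas r 0 C hC
  have Y4 := seg_meas 0 l C hC
  have Y5 := seg_meas 0 1 C hC
  dsimp only at L1 L2 L3 L4 L5
  generalize (volume {τ : ℝ | (0 ≤ τ ∧ τ ≤ 1) ∧ 0 + τ * (t - 0) ∈ A}).toReal = x1 at L1 X1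
  generalize (volume {τ : ℝ | (0 ≤ τ ∧ τ ≤ 1) ∧ t + τ * (1 - t) ∈ A}).toReal = x2 at L2 X2
  generalize (volume {τ : ℝ | (0 ≤ τ ∧ τ ≤ 1) ∧ 1 + τ * (s - 1) ∈ A}).toReal = x3 at L3 X3
  generalize (volume {τ : ℝ | (0 ≤ τ ∧ τ ≤ 1) ∧ s + τ * (0 - s) ∈ A}).toReal = x4 at L4 X4
  generalize (volume {τ : ℝ | (0 ≤ τ ∧ τ ≤ 1) ∧ s + τ * (t - s) ∈ A}).toReal = x5 at L5 X5
  generalize (volume {τ : ℝ | (0 ≤ τ ∧ τ ≤ 1) ∧ l + τ * (1 - l) ∈ C}).toReal = y1 at L1 Y1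
  generalize (volume {τ : ℝ | (0 ≤ τ ∧ τ ≤ 1) ∧ 1 + τ * (r - 1) ∈ C}).toReal = y2 at L2 Y2
  generalize (volume {τ : ℝ | (0 ≤ τ ∧ τ ≤ 1) ∧ r + τ * (0 - r) ∈ C}).toReal = y3 at L3 Y3
  generalize (volume {τ : ℝ | (0 ≤ τ ∧ τ ≤ 1) ∧ 0 + τ * (l - 0) ∈ C}).toReal = y4 at L4 Y4
  generalize (volume {τ : ℝ | (0 ≤ τ ∧ τ ≤ 1) ∧ 0 + τ * (1 - 0) ∈ C}).toReal = y5 at L5 Y5
  have h0t : 0 ≤ t := by linarith
  have hs1 : s < 1 := by linarith
  rw [uIcc_of_le h0t, sub_zero, abs_of_nonneg h0t, split_meas A hA 0 s t hs.le hst] at X1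
  rw [uIcc_of_le ht.le, abs_of_nonneg (by linarith)] at X2
  rw [uIcc_of_ge hs1.le, abs_sub_comm, abs_of_nonneg (by linarith),
    split_meas A hA s t 1 hst ht.le] at X3
  rw [uIcc_of_ge hs.le, zero_sub, abs_neg, abs_of_nonneg hs.le] at X4
  rw [uIcc_of_le hst, abs_of_nonneg (by linarith)] at X5
  rw [uIcc_of_le hl1.le, abs_of_nonneg (by linarith)] at Y1
  rw [uIcc_of_ge hr1.le, abs_sub_comm, abs_of_nonneg (by linarith)] at Y2
  rw [uIcc_of_ge hr.le, zero_sub, abs_neg, abs_of_nonneg hr.le] at Y3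
  rw [uIcc_of_le hl.le, sub_zero, abs_of_nonneg hl.le] at Y4
  rw [uIcc_of_le zero_le_one, sub_zero, abs_one, one_mul, inter_eq_left.2 hC1] at Y5
  have VA : (volume A).toReal = (volume (A ∩ Icc 0 s)).toReal + (volume (A ∩ Icc s t)).toReal
      + (volume (A ∩ Icc t 1)).toReal := by
    conv_lhs => rw [← inter_eq_left.2 hA1]
    rw [split_meas A hA 0 t 1 h0t ht.le, split_meas A hA 0 s t hs.le hst]
  have VC1 : (volume C).toReal = (volume (C ∩ Icc 0 l)).toReal + (volume (C ∩ Icc l 1)).toReal := by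
    conv_lhs => rw [← inter_eq_left.2 hC1]
    rw [split_meas C hC 0 l 1 hl.le hl1.le]
  have VC2 : (volume C).toReal = (volume (C ∩ Icc 0 r)).toReal + (volume (C ∩ Icc r 1)).toReal := by
    conv_lhs => rw [← inter_eq_left.2 hC1]
    rw [split_meas C hC 0 r 1 hr.le hr1.le]
  generalize (volume A).toReal = vA at *
  generalize (volume C).toReal = vC at *
  generalize (volume (A ∩ Icc 0 s)).toReal = a1 at *
  generalize (volume (A ∩ Icc s t)).toReal = a2 at *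
  generalize (volume (A ∩ Icc t 1)).toReal = a3 at *
  generalize (volume (C ∩ Icc 0 l)).toReal = c1 at *
  generalize (volume (C ∩ Icc l 1)).toReal = c2 at *
  generalize (volume (C ∩ Icc 0 r)).toReal = d1 at *
  generalize (volume (C ∩ Icc r 1)).toReal = d2 at *
  have hA1p : 0 < s * (1 - l) := mul_pos hs (by linarith)
  have hA2p : 0 < l * t := mul_pos hl (by linarith)
  have hB1p : 0 < (1 - t) * r := mul_pos (by linarith) hr
  have hB2p : 0 < (1 - r) * (1 - s) := mul_pos (by linarith) (by linarith)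
  set A1 := s * (1 - l) with hA1def
  set A2 := l * t with hA2def
  set B1 := (1 - t) * r with hB1def
  set B2 := (1 - r) * (1 - s) with hB2def
  have hD : 0 < (A1 + A2) * (B1 + B2) := by positivity
  have m1 : 0 ≤ A1 * (B1 + B2) * t := by positivity
  have m2 : 0 ≤ (A1 + A2) * B2 * (1 - t) := mul_nonneg (by positivity) (by linarith)
  have m3 : 0 ≤ B1 * (A1 + A2) * (1 - s) := mul_nonneg (by positivity) (by linarith)
  have m4 : 0 ≤ A2 * (B1 + B2) * s := by positivity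
  have m5 : 0 ≤ (A2 * B2 - A1 * B1) * (t - s) := mul_nonneg (by linarith) (by linarith)
  have S1 := mul_le_mul_of_nonneg_left L1 m1
  have S2 := mul_le_mul_of_nonneg_left L2 m2
  have S3 := mul_le_mul_of_nonneg_left L3 m3
  have S4 := mul_le_mul_of_nonneg_left L4 m4
  have S5 := mul_le_mul_of_nonneg_left L5 m5
  have E1 : A1 * (B1 + B2) * t * (x1 + y1) = A1 * (B1 + B2) * (a1 + a2) + s * t * (B1 + B2) * c2 := by
    rw [← X1, ← Y1, hA1def]; ring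
  have E2 : (A1 + A2) * B2 * (1 - t) * (x2 + y2)
      = (A1 + A2) * B2 * a3 + (A1 + A2) * (1 - s) * (1 - t) * d2 := by
    rw [← X2, ← Y2, hB2def]; ring
  have E3 : B1 * (A1 + A2) * (1 - s) * (x3 + y3)
      = B1 * (A1 + A2) * (a2 + a3) + (A1 + A2) * (1 - s) * (1 - t) * d1 := by
    rw [← X3, ← Y3, hB1def]; ring
  have E4 : A2 * (B1 + B2) * s * (x4 + y4) = A2 * (B1 + B2) * a1 + s * t * (B1 + B2) * c1 := by
    rw [← X4, ← Y4, hA2def]; ring
  have E5 : (A2 * B2 - A1 * B1) * (t - s) * (x5 + y5)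
      = (A2 * B2 - A1 * B1) * a2 + (A2 * B2 - A1 * B1) * (t - s) * vC := by
    rw [← X5, Y5]; ring
  rw [E1] at S1
  rw [E2] at S2
  rw [E3] at S3
  rw [E4] at S4
  rw [E5] at S5
  have key : (A1 + A2) * (B1 + B2) * (vA + vC) ≤ (A1 + A2) * (B1 + B2) * 1 := by
    have T1 : A1 * (B1 + B2) * (a1 + a2) + (A1 + A2) * B2 * a3 + B1 * (A1 + A2) * (a2 + a3)
        + A2 * (B1 + B2) * a1 + (A2 * B2 - A1 * B1) * a2 = (A1 + A2) * (B1 + B2) * vA := by
      rw [VA]; ring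
    have T2 : s * t * (B1 + B2) * c2 + s * t * (B1 + B2) * c1
        + ((A1 + A2) * (1 - s) * (1 - t) * d2 + (A1 + A2) * (1 - s) * (1 - t) * d1)
        + (A2 * B2 - A1 * B1) * (t - s) * vC = (A1 + A2) * (B1 + B2) * vC := by
      have e1 : s * t * (B1 + B2) * c2 + s * t * (B1 + B2) * c1 = s * t * (B1 + B2) * vC := by
        rw [VC1]; ring
      have e2 : (A1 + A2) * (1 - s) * (1 - t) * d2 + (A1 + A2) * (1 - s) * (1 - t) * d1
          = (A1 + A2) * (1 - s) * (1 - t) * vC := by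
        rw [VC2]; ring
      rw [e1, e2, hA1def, hA2def, hB1def, hB2def]
      ring
    have T3 : A1 * (B1 + B2) * t * 1 + (A1 + A2) * B2 * (1 - t) * 1
        + B1 * (A1 + A2) * (1 - s) * 1 + A2 * (B1 + B2) * s * 1
        + (A2 * B2 - A1 * B1) * (t - s) * 1 = (A1 + A2) * (B1 + B2) * 1 := by
      ring
    linarith
  exact le_of_mul_le_mul_left key hD

end P243
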