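import Mathlib
import Vale.Agent.P243.Coup

namespace P243

open MeasureTheory Set

/-- reflected set -/
theorem refl_meas (A : Set ℝ) : volume ((fun x : ℝ => 1 - x) ⁻¹' A) = volume A :=
  (Measure.measurePreserving_sub_left (volume : Measure ℝ) 1).measure_preimage_emb
    (MeasurableEquiv.subLeft (1 : ℝ)).measurableEmbedding A

/-- the linear-affine reflection maps the quadrilateral to the quadrilateral -/
theorem quad_refl (s t l r : ℝ) (p : ℝ × ℝ) (hp : p ∈ quad (1 - s) (1 - t) r l) :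
    (1 - p.1, p.2) ∈ quad s t l r := by
  let F : (ℝ × ℝ) →ᵃ[ℝ] (ℝ × ℝ) :=
    { toFun := fun p => (1 - p.1, p.2)
      linear := LinearMap.prodMap (-LinearMap.id) LinearMap.id
      map_vadd' := by
        rintro ⟨a, b⟩ ⟨c, d⟩
        ext
        · simp; ring
        · simp }
  have h1 : F p ∈ F '' quad (1 - s) (1 - t) r l := ⟨p, hp, rfl⟩
  have h2 : F '' quad (1 - s) (1 - t) r l ⊆ quad s t l r := by
    unfold quad
    rw [AffineMap.image_convexHull]
    apply convexHull_mono
    rintro _ ⟨q, hq, rfl⟩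
    simp only [mem_insert_iff, mem_singleton_iff] at hq ⊢
    rcases hq with rfl | rfl | rfl | rfl
    · right; left
      show ((1 - (0 : ℝ)), r) = (1, r)
      norm_num
    · left
      show ((1 - (1 : ℝ)), l) = (0, l)
      norm_num
    · right; right; left
      show ((1 - (1 - s)), (0 : ℝ)) = (s, 0)
      norm_num
    · right; right; right
      show ((1 - (1 - t)), (1 : ℝ)) = (t, 1)
      norm_num
  exact h2 h1

theorem quad_swap (s t l r : ℝ) (p : ℝ × ℝ) (hp : p ∈ quad l r s t) :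
    (p.2, p.1) ∈ quad s t l r := by
  let F : (ℝ × ℝ) →ₗ[ℝ] (ℝ × ℝ) :=
    { toFun := fun p => (p.2, p.1)
      map_add' := by rintro ⟨a, b⟩ ⟨c, d⟩; rfl
      map_smul' := by rintro m ⟨c, d⟩; rfl }
  have h1 : F p ∈ F '' quad l r s t := ⟨p, hp, rfl⟩
  have h2 : F '' quad l r s t ⊆ quad s t l r := by
    unfold quad
    rw [LinearMap.image_convexHull]
    apply convexHull_mono
    rintro _ ⟨q, hq, rfl⟩
    simp only [mem_insert_iff, mem_singleton_iff] at hq ⊢
    rcases hq with rfl | rfl | rfl | rfl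
    · right; right; left; rfl
    · right; right; right; rfl
    · left; rfl
    · right; left; rfl
  exact h2 h1

theorem quad_le (s t l r : ℝ) (hs : 0 < s) (hst : s ≤ t) (ht : t < 1)
    (hl : 0 < l) (hl1 : l < 1) (hr : 0 < r) (hr1 : r < 1)
    (A C : Set ℝ) (hA : MeasurableSet A) (hC : MeasurableSet C) (hA1 : A ⊆ Icc 0 1)
    (hC1 : C ⊆ Icc 0 1) (hdis : ∀ p ∈ quad s t l r, ¬ (p.1 ∈ A ∧ p.2 ∈ C)) :
    (volume A).toReal + (volume C).toReal ≤ 1 := by
  by_cases hc : s * (1 - l) * ((1 - t) * r) ≤ l * t * ((1 - r) * (1 - s))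
  · exact coup s t l r hs hst ht hl hl1 hr hr1 hc A C hA hC hA1 hC1 hdis
  · rw [not_le] at hc
    have hlr : l ≤ r := by
      by_contra hcon
      rw [not_le] at hcon
      have h1 : s * (1 - t) ≤ t * (1 - s) := by nlinarith
      have h2 : r * (1 - l) ≤ l * (1 - r) := by nlinarith
      have h3 : 0 ≤ s * (1 - t) := mul_nonneg hs.le (by linarith)
      have h4 : 0 ≤ r * (1 - l) := mul_nonneg hr.le (by linarith)
      have h5 := mul_le_mul h1 h2 h4 (le_trans h3 h1)
      nlinarith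
    have h := coup l r s t hl hlr hr1 hs (lt_of_le_of_lt hst ht) (lt_of_lt_of_le hs hst) ht
      (by nlinarith) C A hC hA hC1 hA1 (fun p hp hcon =>
        hdis (p.2, p.1) (quad_swap s t l r p hp) ⟨hcon.2, hcon.1⟩)
    linarith

/-- all positions: reflect `x ↦ 1 - x` if `t < s`, transpose if the inequality of `coup` fails -/
theorem quad_all (s t l r : ℝ) (hs : 0 < s) (hs1 : s < 1) (ht0 : 0 < t) (ht : t < 1)
    (hl : 0 < l) (hl1 : l < 1) (hr : 0 < r) (hr1 : r < 1)
    (A C : Set ℝ) (hA : MeasurableSet A) (hC : MeasurableSet C) (hA1 : A ⊆ Icc 0 1)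
    (hC1 : C ⊆ Icc 0 1) (hdis : ∀ p ∈ quad s t l r, ¬ (p.1 ∈ A ∧ p.2 ∈ C)) :
    (volume A).toReal + (volume C).toReal ≤ 1 := by
  rcases le_total s t with hst | hst
  · exact quad_le s t l r hs hst ht hl hl1 hr hr1 A C hA hC hA1 hC1 hdis
  · have hm : Measurable (fun x : ℝ => 1 - x) := by fun_prop
    have h := quad_le (1 - s) (1 - t) r l (by linarith) (by linarith) (by linarith) hr hr1 hl hl1
      ((fun x : ℝ => 1 - x) ⁻¹' A) C (hm hA) hC (fun x hx => by
        have h1 := hA1 hx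
        simp only [mem_Icc] at h1 ⊢
        constructor <;> linarith [h1.1, h1.2]) hC1 (fun p hp hcon =>
          hdis (1 - p.1, p.2) (quad_refl s t l r p hp) ⟨hcon.1, hcon.2⟩)
    rwa [refl_meas] at h

end P243
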