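import Mathlib
import Vale.Agent.P243.Quad

namespace P243

open MeasureTheory Set

/-- the compact case: perturb the touching points -/
theorem planar01_compact (K : Set (ℝ × ℝ)) (hK : Convex ℝ K) (hKc : IsCompact K)
    (h1 : Prod.fst '' K = Icc 0 1) (h2 : Prod.snd '' K = Icc 0 1)
    (A C : Set ℝ) (hA : IsCompact A) (hC : IsCompact C) (hA1 : A ⊆ Icc 0 1)
    (hC1 : C ⊆ Icc 0 1) (hdis : ∀ p ∈ K, ¬ (p.1 ∈ A ∧ p.2 ∈ C)) :
    (volume A).toReal + (volume C).toReal ≤ 1 := by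
  have hdisj : Disjoint K (A ×ˢ C) := by
    rw [Set.disjoint_left]
    rintro p hp ⟨ha, hc⟩
    exact hdis p hp ⟨ha, hc⟩
  obtain ⟨δ, hδ, hd⟩ := hdisj.exists_cthickenings hKc (hA.prod hC).isClosed
  have hd' : ∀ p ∈ Metric.cthickening δ K, ¬ (p.1 ∈ A ∧ p.2 ∈ C) := by
    rintro p hp ⟨ha, hc⟩
    exact Set.disjoint_left.mp hd hp (Metric.self_subset_cthickening _ ⟨ha, hc⟩)
  have m0 : (0 : ℝ) ∈ Icc (0 : ℝ) 1 := ⟨le_rfl, zero_le_one⟩
  have m1 : (1 : ℝ) ∈ Icc (0 : ℝ) 1 := ⟨zero_le_one, le_rfl⟩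
  obtain ⟨⟨_, l⟩, hL, e1⟩ := h1.symm ▸ m0
  obtain ⟨⟨_, r⟩, hR, e2⟩ := h1.symm ▸ m1
  obtain ⟨⟨s, _⟩, hB, e3⟩ := h2.symm ▸ m0
  obtain ⟨⟨t, _⟩, hT, e4⟩ := h2.symm ▸ m1
  simp only at e1 e2 e3 e4
  subst e1 e2 e3 e4
  have hl : l ∈ Icc (0 : ℝ) 1 := h2 ▸ mem_image_of_mem Prod.snd hL
  have hr : r ∈ Icc (0 : ℝ) 1 := h2 ▸ mem_image_of_mem Prod.snd hR
  have hs : s ∈ Icc (0 : ℝ) 1 := h1 ▸ mem_image_of_mem Prod.fst hB
  have ht : t ∈ Icc (0 : ℝ) 1 := h1 ▸ mem_image_of_mem Prod.fst hT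
  set η : ℝ := min δ 1 with hη
  have hη0 : 0 < η := lt_min hδ one_pos
  have hη1 : η ≤ 1 := min_le_right _ _
  have hηδ : η ≤ δ := min_le_left _ _
  let g : ℝ → ℝ := fun x => (1 - η) * x + η * (1 / 2)
  have hg0 : ∀ x ∈ Icc (0 : ℝ) 1, 0 < g x := by
    intro x hx
    have : 0 ≤ (1 - η) * x := mul_nonneg (by linarith) hx.1
    simp only [g]
    linarith
  have hg1 : ∀ x ∈ Icc (0 : ℝ) 1, g x < 1 := by
    intro x hx
    have : (1 - η) * x ≤ (1 - η) * 1 := mul_le_mul_of_nonneg_left hx.2 (by linarith)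
    simp only [g]
    linarith
  have hgd : ∀ x ∈ Icc (0 : ℝ) 1, dist (g x) x ≤ δ := by
    intro x hx
    have e : g x - x = η * (1 / 2 - x) := by simp only [g]; ring
    rw [Real.dist_eq, e, abs_mul, abs_of_pos hη0]
    have : |1 / 2 - x| ≤ 1 := by
      rw [abs_le]
      constructor <;> linarith [hx.1, hx.2]
    nlinarith
  have hsub : quad (g s) (g t) (g l) (g r) ⊆ Metric.cthickening δ K := by
    apply convexHull_min _ (hK.cthickening δ)
    intro p hp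
    simp only [mem_insert_iff, mem_singleton_iff] at hp
    rcases hp with rfl | rfl | rfl | rfl
    · refine Metric.mem_cthickening_of_dist_le _ _ _ _ hL ?_
      rw [Prod.dist_eq]
      simpa using hgd l hl
    · refine Metric.mem_cthickening_of_dist_le _ _ _ _ hR ?_
      rw [Prod.dist_eq]
      simpa using hgd r hr
    · refine Metric.mem_cthickening_of_dist_le _ _ _ _ hB ?_
      rw [Prod.dist_eq]
      simpa using hgd s hs
    · refine Metric.mem_cthickening_of_dist_le _ _ _ _ hT ?_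
      rw [Prod.dist_eq]
      simpa using hgd t ht
  exact quad_all (g s) (g t) (g l) (g r) (hg0 s hs) (hg1 s hs) (hg0 t ht) (hg1 t ht)
    (hg0 l hl) (hg1 l hl) (hg0 r hr) (hg1 r hr) A C hA.measurableSet hC.measurableSet hA1 hC1
    (fun p hp => hd' p (hsub hp))

/-- normalised planar lemma: inner regularity (compact `A`, `C`), positive distance of
`A ×ˢ C` from `K`, and the touching points moved by `ε` into the open sides -/
theorem planar01 (K : Set (ℝ × ℝ)) (hK : Convex ℝ K) (hKc : IsCompact K)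
    (h1 : Prod.fst '' K = Icc 0 1) (h2 : Prod.snd '' K = Icc 0 1)
    (A C : Set ℝ) (hA : MeasurableSet A) (hC : MeasurableSet C) (hA1 : A ⊆ Icc 0 1)
    (hC1 : C ⊆ Icc 0 1) (hdis : ∀ p ∈ K, ¬ (p.1 ∈ A ∧ p.2 ∈ C)) :
    (volume A).toReal + (volume C).toReal ≤ 1 := by
  have hAf : volume A ≠ ⊤ := (lt_of_le_of_lt (measure_mono hA1) (by simp)).ne
  have hCf : volume C ≠ ⊤ := (lt_of_le_of_lt (measure_mono hC1) (by simp)).ne
  refine le_of_forall_pos_le_add fun ε hε => ?_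
  have hε2 : ENNReal.ofReal (ε / 2) ≠ 0 := by
    simp only [ne_eq, ENNReal.ofReal_eq_zero, not_le]
    linarith
  obtain ⟨A', hA'A, hA'c, hA'm⟩ := hA.exists_isCompact_lt_add hAf hε2
  obtain ⟨C', hC'C, hC'c, hC'm⟩ := hC.exists_isCompact_lt_add hCf hε2
  have key := planar01_compact K hK hKc h1 h2 A' C' hA'c hC'c (hA'A.trans hA1) (hC'C.trans hC1)
    (fun p hp h => hdis p hp ⟨hA'A h.1, hC'C h.2⟩)
  have hA'f : volume A' ≠ ⊤ := ne_top_of_le_ne_top hAf (measure_mono hA'A)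
  have hC'f : volume C' ≠ ⊤ := ne_top_of_le_ne_top hCf (measure_mono hC'C)
  have i1 : (volume A).toReal ≤ (volume A').toReal + ε / 2 := by
    have := (ENNReal.toReal_le_toReal hAf (ENNReal.add_ne_top.mpr ⟨hA'f, ENNReal.ofReal_ne_top⟩)).mpr
      hA'm.le
    rwa [ENNReal.toReal_add hA'f ENNReal.ofReal_ne_top, ENNReal.toReal_ofReal (by linarith)] at this
  have i2 : (volume C).toReal ≤ (volume C').toReal + ε / 2 := by
    have := (ENNReal.toReal_le_toReal hCf (ENNReal.add_ne_top.mpr ⟨hC'f, ENNReal.ofReal_ne_top⟩)).mpr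
      hC'm.le
    rwa [ENNReal.toReal_add hC'f ENNReal.ofReal_ne_top, ENNReal.toReal_ofReal (by linarith)] at this
  linarith

end P243
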