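import Mathlib
import Vale.Agent.P243.Planar

namespace P243

open MeasureTheory Set

/-- volume of the rescaled complement -/
theorem vol_scaled (x0 x1 : ℝ) (hx : x0 < x1) (B : Set ℝ) (hB : MeasurableSet B) :
    (volume ((fun s : ℝ => x0 + s * (x1 - x0)) ⁻¹' (Icc x0 x1 \ B))).toReal =
      1 - (volume (B ∩ Icc x0 x1)).toReal / (x1 - x0) := by
  have hw : 0 < x1 - x0 := by linarith
  have e : (fun s : ℝ => x0 + s * (x1 - x0)) ⁻¹' (Icc x0 x1 \ B) =
      (fun s : ℝ => s * (x1 - x0)) ⁻¹' ((fun s : ℝ => x0 + s) ⁻¹' (Icc x0 x1 \ B)) := rfl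
  rw [e, Real.volume_preimage_mul_right hw.ne', measure_preimage_add]
  rw [ENNReal.toReal_mul, ENNReal.toReal_ofReal (abs_nonneg _), abs_of_pos (inv_pos.mpr hw)]
  have h1 : volume (Icc x0 x1 \ B) = volume (Icc x0 x1) - volume (B ∩ Icc x0 x1) := by
    rw [← diff_inter_self_eq_diff, measure_diff inter_subset_right
      (hB.inter measurableSet_Icc).nullMeasurableSet
      (ne_top_of_le_ne_top (by simp) (measure_mono inter_subset_right))]
  rw [h1, ENNReal.toReal_sub_of_le (measure_mono inter_subset_right) (by simp), Real.volume_Icc,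
    ENNReal.toReal_ofReal hw.le]
  field_simp

/-- planar lemma, affine rescaling of `planar01` with the complements -/
theorem planar (K : Set (ℝ × ℝ)) (hK : Convex ℝ K) (hKc : IsCompact K) (x0 x1 y0 y1 : ℝ)
    (hx : x0 < x1) (hy : y0 < y1)
    (h1 : Prod.fst '' K = Icc x0 x1) (h2 : Prod.snd '' K = Icc y0 y1)
    (B C : Set ℝ) (hB : MeasurableSet B) (hC : MeasurableSet C)
    (hcov : ∀ p ∈ K, p.1 ∈ B ∨ p.2 ∈ C) :
    1 ≤ (volume (B ∩ Icc x0 x1)).toReal / (x1 - x0)
      + (volume (C ∩ Icc y0 y1)).toReal / (y1 - y0) := by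
  have hw : 0 < x1 - x0 := by linarith
  have hv : 0 < y1 - y0 := by linarith
  let g : ℝ × ℝ → ℝ × ℝ := fun p => (x0 + p.1 * (x1 - x0), y0 + p.2 * (y1 - y0))
  let gi : ℝ × ℝ → ℝ × ℝ := fun p => ((p.1 - x0) / (x1 - x0), (p.2 - y0) / (y1 - y0))
  have hgi : Continuous gi := by
    apply Continuous.prodMk
    · exact (continuous_fst.sub continuous_const).div_const _
    · exact (continuous_snd.sub continuous_const).div_const _
  have hg1 : ∀ p, g (gi p) = p := by
    intro p
    simp only [g, gi]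
    ext <;> simp <;> field_simp <;> ring
  let K' : Set (ℝ × ℝ) := gi '' K
  have hK'c : IsCompact K' := hKc.image hgi
  have hK' : Convex ℝ K' := by
    rintro _ ⟨p, hp, rfl⟩ _ ⟨r, hr, rfl⟩ a b ha hb hab
    refine ⟨a • p + b • r, hK hp hr ha hb hab, ?_⟩
    have hb' : b = 1 - a := by linarith
    subst hb'
    simp only [gi]
    ext <;> simp <;> field_simp <;> ring
  have hf1 : Prod.fst '' K' = Icc 0 1 := by
    ext s
    constructor
    · rintro ⟨_, ⟨p, hp, rfl⟩, rfl⟩
      have : p.1 ∈ Icc x0 x1 := h1 ▸ mem_image_of_mem _ hp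
      simp only [gi]
      refine ⟨div_nonneg (by linarith [this.1]) hw.le, ?_⟩
      rw [div_le_one hw]
      linarith [this.2]
    · intro hs
      have hmem : x0 + s * (x1 - x0) ∈ Icc x0 x1 := by
        constructor <;> nlinarith [hs.1, hs.2]
      rw [← h1] at hmem
      obtain ⟨p, hp, hps⟩ := hmem
      refine ⟨gi p, ⟨p, hp, rfl⟩, ?_⟩
      simp only [gi, hps]
      field_simp
      ring
  have hf2 : Prod.snd '' K' = Icc 0 1 := by
    ext s
    constructor
    · rintro ⟨_, ⟨p, hp, rfl⟩, rfl⟩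
      have : p.2 ∈ Icc y0 y1 := h2 ▸ mem_image_of_mem _ hp
      simp only [gi]
      refine ⟨div_nonneg (by linarith [this.1]) hv.le, ?_⟩
      rw [div_le_one hv]
      linarith [this.2]
    · intro hs
      have hmem : y0 + s * (y1 - y0) ∈ Icc y0 y1 := by
        constructor <;> nlinarith [hs.1, hs.2]
      rw [← h2] at hmem
      obtain ⟨p, hp, hps⟩ := hmem
      refine ⟨gi p, ⟨p, hp, rfl⟩, ?_⟩
      simp only [gi, hps]
      field_simp
      ring
  have hm1 : Measurable (fun s : ℝ => x0 + s * (x1 - x0)) := by fun_prop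
  have hm2 : Measurable (fun s : ℝ => y0 + s * (y1 - y0)) := by fun_prop
  have key := planar01 K' hK' hK'c hf1 hf2
    ((fun s : ℝ => x0 + s * (x1 - x0)) ⁻¹' (Icc x0 x1 \ B))
    ((fun s : ℝ => y0 + s * (y1 - y0)) ⁻¹' (Icc y0 y1 \ C))
    (hm1 (measurableSet_Icc.diff hB)) (hm2 (measurableSet_Icc.diff hC)) ?_ ?_ ?_
  · rw [vol_scaled x0 x1 hx B hB, vol_scaled y0 y1 hy C hC] at key
    linarith
  · intro s hs
    have h := hs.1
    simp only [mem_Icc] at h
    constructor
    · by_contra hcon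
      push Not at hcon
      nlinarith [h.1]
    · by_contra hcon
      push Not at hcon
      nlinarith [h.2]
  · intro s hs
    have h := hs.1
    simp only [mem_Icc] at h
    constructor
    · by_contra hcon
      push Not at hcon
      nlinarith [h.1]
    · by_contra hcon
      push Not at hcon
      nlinarith [h.2]
  · rintro _ ⟨p, hp, rfl⟩ ⟨ha, hb⟩
    have e1 : x0 + (gi p).1 * (x1 - x0) = p.1 := congrArg Prod.fst (hg1 p)
    have e2 : y0 + (gi p).2 * (y1 - y0) = p.2 := congrArg Prod.snd (hg1 p)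
    have ha' := ha.2
    have hb' := hb.2
    simp only [e1] at ha'
    simp only [e2] at hb'
    rcases hcov p hp with h | h
    · exact ha' h
    · exact hb' h

end P243
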