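import Mathlib

namespace P243

open MeasureTheory Set

/-- the section of a planar set at height `h` -/
def sec (P : Set (ℝ × ℝ)) (h : ℝ) : Set ℝ := {x | (h, x) ∈ P}

/-- length of the section -/
noncomputable def len (P : Set (ℝ × ℝ)) (h : ℝ) : ℝ := (volume (sec P h)).toReal

theorem sec_compact {P : Set (ℝ × ℝ)} (hPc : IsCompact P) (h : ℝ) : IsCompact (sec P h) := by
  have h1 : sec P h = Prod.snd '' (P ∩ (Prod.fst ⁻¹' {h})) := by
    ext x
    constructor
    · intro hx
      exact ⟨(h, x), ⟨hx, rfl⟩, rfl⟩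
    · rintro ⟨⟨u, v⟩, ⟨hp, hu⟩, rfl⟩
      have hu' : u = h := hu
      subst hu'
      exact hp
  rw [h1]
  exact (hPc.inter_right (isClosed_singleton.preimage continuous_fst)).image continuous_snd

theorem sec_convex {P : Set (ℝ × ℝ)} (hP : Convex ℝ P) (h : ℝ) : Convex ℝ (sec P h) := by
  intro x hx y hy s t hs ht hst
  have h1 := hP (show (h, x) ∈ P from hx) (show (h, y) ∈ P from hy) hs ht hst
  have h2 : s • (h, x) + t • (h, y) = (h, s • x + t • y) := by
    ext
    · simp only [Prod.fst_add, Prod.smul_fst, smul_eq_mul]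
      rw [← add_mul, hst, one_mul]
    · simp
  rw [h2] at h1
  exact h1

theorem sec_eq {P : Set (ℝ × ℝ)} (hP : Convex ℝ P) (hPc : IsCompact P) {a b : ℝ}
    (hab : Prod.fst '' P = Icc a b) {h : ℝ} (hh : h ∈ Icc a b) :
    ∃ u v, u ≤ v ∧ sec P h = Icc u v ∧ len P h = v - u := by
  have hne : (sec P h).Nonempty := by
    rw [← hab] at hh
    obtain ⟨⟨u, v⟩, hp, hu⟩ := hh
    have hu' : u = h := hu
    subst hu'
    exact ⟨v, hp⟩
  have hconn : IsConnected (sec P h) := ⟨hne, (sec_convex hP h).isPreconnected⟩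
  have h1 := eq_Icc_of_connected_compact hconn (sec_compact hPc h)
  have h2 : sInf (sec P h) ≤ sSup (sec P h) := by
    obtain ⟨x, hx⟩ := hne
    rw [h1] at hx
    exact hx.1.trans hx.2
  refine ⟨_, _, h2, h1, ?_⟩
  unfold len
  conv_lhs => rw [h1]
  rw [Real.volume_Icc, ENNReal.toReal_ofReal (sub_nonneg.2 h2)]

/-- sections of a planar convex body: range of heights, sections are segments of positive
length inside, the length is concave, the area is the integral of the length -/
theorem width (P : Set (ℝ × ℝ)) (hP : Convex ℝ P) (hPc : IsCompact P)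
    (hPi : (interior P).Nonempty) (a b : ℝ) (hab : Prod.fst '' P = Icc a b) :
    a < b ∧ ConcaveOn ℝ (Icc a b) (len P) ∧ (∀ h ∈ Icc a b, 0 ≤ len P h) ∧
      (∀ h ∈ Ioo a b, ∃ x0 x1, x0 < x1 ∧ sec P h = Icc x0 x1 ∧ len P h = x1 - x0) ∧
      (volume P).toReal = ∫ h in Icc a b, len P h ∧ 0 < (volume P).toReal := by
  -- a small square inside
  obtain ⟨⟨h0, x0⟩, hp0⟩ := hPi
  obtain ⟨ε, hε, hball⟩ := Metric.isOpen_iff.1 isOpen_interior _ hp0
  have hin : ∀ h x : ℝ, |h - h0| < ε → |x - x0| < ε → (h, x) ∈ P := by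
    intro h x h1 h2
    apply interior_subset
    apply hball
    rw [Metric.mem_ball, Prod.dist_eq, max_lt_iff, Real.dist_eq, Real.dist_eq]
    exact ⟨h1, h2⟩
  have hmem : ∀ h x : ℝ, (h, x) ∈ P → h ∈ Icc a b := by
    intro h x hp
    rw [← hab]
    exact ⟨(h, x), hp, rfl⟩
  have e1 := hmem (h0 + ε / 2) x0 (hin _ _ (by rw [add_sub_cancel_left, abs_of_pos (by linarith)]; linarith) (by simpa using hε))
  have e2 := hmem (h0 - ε / 2) x0 (hin _ _ (by
    rw [show h0 - ε / 2 - h0 = -(ε / 2) by ring, abs_neg, abs_of_pos (by linarith)]; linarith)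
    (by simpa using hε))
  have hablt : a < b := by linarith [e1.2, e2.1]
  have hnn : ∀ h ∈ Icc a b, 0 ≤ len P h := fun h _ => ENNReal.toReal_nonneg
  have hconc : ConcaveOn ℝ (Icc a b) (len P) := by
    refine ⟨convex_Icc a b, ?_⟩
    intro h1 hh1 h2 hh2 s t hs ht hst
    have hh : s • h1 + t • h2 ∈ Icc a b := (convex_Icc a b) hh1 hh2 hs ht hst
    obtain ⟨u1, v1, huv1, hs1, hl1⟩ := sec_eq hP hPc hab hh1
    obtain ⟨u2, v2, huv2, hs2, hl2⟩ := sec_eq hP hPc hab hh2
    obtain ⟨u, v, huv, hs3, hl3⟩ := sec_eq hP hPc hab hh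
    have hu : s • u1 + t • u2 ∈ sec P (s • h1 + t • h2) := by
      have p1 : (h1, u1) ∈ P := by
        have : u1 ∈ sec P h1 := by rw [hs1]; exact left_mem_Icc.2 huv1
        exact this
      have p2 : (h2, u2) ∈ P := by
        have : u2 ∈ sec P h2 := by rw [hs2]; exact left_mem_Icc.2 huv2
        exact this
      exact hP p1 p2 hs ht hst
    have hv : s • v1 + t • v2 ∈ sec P (s • h1 + t • h2) := by
      have p1 : (h1, v1) ∈ P := by
        have : v1 ∈ sec P h1 := by rw [hs1]; exact right_mem_Icc.2 huv1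
        exact this
      have p2 : (h2, v2) ∈ P := by
        have : v2 ∈ sec P h2 := by rw [hs2]; exact right_mem_Icc.2 huv2
        exact this
      exact hP p1 p2 hs ht hst
    rw [hs3] at hu hv
    rw [hl1, hl2, hl3]
    simp only [smul_eq_mul] at *
    nlinarith [hu.1, hv.2]
  have hh0 : h0 ∈ Icc a b := hmem h0 x0 (hin _ _ (by simpa using hε) (by simpa using hε))
  have hlen0 : 0 < len P h0 := by
    obtain ⟨u, v, huv, hs, hl⟩ := sec_eq hP hPc hab hh0
    have f1 : x0 + ε / 2 ∈ sec P h0 := hin _ _ (by simpa using hε)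
      (by rw [add_sub_cancel_left, abs_of_pos (by linarith)]; linarith)
    have f2 : x0 - ε / 2 ∈ sec P h0 := hin _ _ (by simpa using hε)
      (by rw [show x0 - ε / 2 - x0 = -(ε / 2) by ring, abs_neg, abs_of_pos (by linarith)]; linarith)
    rw [hs] at f1 f2
    rw [hl]
    linarith [f1.2, f2.1]
  have hpos : ∀ h ∈ Ioo a b, 0 < len P h := by
    intro h hh
    rcases le_total h h0 with hle | hle
    · -- between a and h0
      have hlt : a < h0 := lt_of_lt_of_le hh.1 hle
      have h3 := hconc.2 (left_mem_Icc.2 hablt.le) hh0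
        (show 0 ≤ (h0 - h) / (h0 - a) from div_nonneg (by linarith) (by linarith))
        (show 0 ≤ (h - a) / (h0 - a) from div_nonneg (by linarith [hh.1]) (by linarith))
        (by rw [← add_div, div_eq_one_iff_eq (by linarith)]; ring)
      have h4 : ((h0 - h) / (h0 - a)) • a + ((h - a) / (h0 - a)) • h0 = h := by
        simp only [smul_eq_mul]
        rw [div_mul_eq_mul_div, div_mul_eq_mul_div, ← add_div, div_eq_iff (by linarith)]
        ring
      rw [h4] at h3
      have h5 : 0 < ((h - a) / (h0 - a)) • len P h0 := by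
        rw [smul_eq_mul]
        exact mul_pos (div_pos (by linarith [hh.1]) (by linarith)) hlen0
      have h6 : 0 ≤ ((h0 - h) / (h0 - a)) • len P a := by
        rw [smul_eq_mul]
        exact mul_nonneg (div_nonneg (by linarith) (by linarith)) ENNReal.toReal_nonneg
      linarith
    · have hlt : h0 < b := lt_of_le_of_lt hle hh.2
      have h3 := hconc.2 hh0 (right_mem_Icc.2 hablt.le)
        (show 0 ≤ (b - h) / (b - h0) from div_nonneg (by linarith [hh.2]) (by linarith))
        (show 0 ≤ (h - h0) / (b - h0) from div_nonneg (by linarith) (by linarith))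
        (by rw [← add_div, div_eq_one_iff_eq (by linarith)]; ring)
      have h4 : ((b - h) / (b - h0)) • h0 + ((h - h0) / (b - h0)) • b = h := by
        simp only [smul_eq_mul]
        rw [div_mul_eq_mul_div, div_mul_eq_mul_div, ← add_div, div_eq_iff (by linarith)]
        ring
      rw [h4] at h3
      have h5 : 0 < ((b - h) / (b - h0)) • len P h0 := by
        rw [smul_eq_mul]
        exact mul_pos (div_pos (by linarith [hh.2]) (by linarith)) hlen0
      have h6 : 0 ≤ ((h - h0) / (b - h0)) • len P b := by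
        rw [smul_eq_mul]
        exact mul_nonneg (div_nonneg (by linarith) (by linarith)) ENNReal.toReal_nonneg
      linarith
  refine ⟨hablt, hconc, hnn, ?_, ?_, ?_⟩
  · intro h hh
    obtain ⟨u, v, huv, hs, hl⟩ := sec_eq hP hPc hab (Ioo_subset_Icc_self hh)
    have := hpos h hh
    exact ⟨u, v, by linarith, hs, hl⟩
  · have hPm : MeasurableSet P := hPc.measurableSet
    have h1 : volume P = ∫⁻ h in Icc a b, volume (sec P h) := by
      have h2 : volume P = ∫⁻ h, volume (sec P h) := by
        rw [Measure.volume_eq_prod, Measure.prod_apply hPm]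
        rfl
      rw [h2, ← lintegral_indicator measurableSet_Icc]
      refine lintegral_congr fun h => ?_
      by_cases hh : h ∈ Icc a b
      · rw [indicator_of_mem hh]
      · rw [indicator_of_notMem hh]
        have : sec P h = ∅ := by
          ext x
          simp only [mem_empty_iff_false, iff_false]
          intro hx
          exact hh (hmem h x hx)
        rw [this, measure_empty]
    rw [h1]
    unfold len
    rw [integral_toReal]
    · exact (measurable_measure_prodMk_left hPm).aemeasurable
    · exact Filter.Eventually.of_forall fun h => (sec_compact hPc h).measure_lt_top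
  · apply ENNReal.toReal_pos
    · exact (Measure.measure_pos_of_nonempty_interior volume ⟨_, hp0⟩).ne'
    · exact hPc.measure_lt_top.ne

end P243
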