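import Mathlib
import Vale.Agent.P243.Planar2
import Vale.Agent.P243.Conc
import Vale.Agent.P243.Width

namespace P243

open MeasureTheory Set

theorem core_aux (P : Set (ℝ × ℝ)) (hP : IsCompact P) (B : Set (ℝ × ℝ)) (hB : MeasurableSet B)
    (hBf : volume B ≠ ⊤) :
    Integrable (fun h => (volume (sec (B ∩ P) h)).toReal) ∧
      ∫ h, (volume (sec (B ∩ P) h)).toReal ≤ (volume B).toReal := by
  have hPm : MeasurableSet P := hP.measurableSet
  have hm : MeasurableSet (B ∩ P) := hB.inter hPm
  have hfin : volume (B ∩ P) ≠ ⊤ :=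
    ((measure_mono inter_subset_left).trans_lt (lt_top_iff_ne_top.2 hBf)).ne
  have hprod : volume (B ∩ P) = ∫⁻ h, volume (sec (B ∩ P) h) := by
    rw [Measure.volume_eq_prod, Measure.prod_apply hm]
    rfl
  have hmeas : Measurable (fun h => volume (sec (B ∩ P) h)) := measurable_measure_prodMk_left hm
  have hne : ∫⁻ h, volume (sec (B ∩ P) h) ≠ ⊤ := by rw [← hprod]; exact hfin
  refine ⟨integrable_toReal_of_lintegral_ne_top hmeas.aemeasurable hne, ?_⟩
  rw [integral_toReal hmeas.aemeasurable (ae_lt_top hmeas hne), ← hprod]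
  exact ENNReal.toReal_mono hBf (measure_mono inter_subset_left)

/-- coordinates `(h, x, y)`; cylinders in the directions of the `y` axis (base `B` in the
`(h, x)` plane) and of the `x` axis (base `C` in the `(h, y)` plane) -/
theorem core (K : Set (ℝ × (ℝ × ℝ))) (hK : Convex ℝ K) (hKc : IsCompact K)
    (hKi : (interior K).Nonempty) (B C : Set (ℝ × ℝ)) (hB : MeasurableSet B)
    (hC : MeasurableSet C) (hBf : volume B ≠ ⊤) (hCf : volume C ≠ ⊤)
    (hcov : ∀ p ∈ K, (p.1, p.2.1) ∈ B ∨ (p.1, p.2.2) ∈ C) :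
    1 / 2 ≤ (volume B).toReal / (volume ((fun p : ℝ × (ℝ × ℝ) => (p.1, p.2.1)) '' K)).toReal
      + (volume C).toReal / (volume ((fun p : ℝ × (ℝ × ℝ) => (p.1, p.2.2)) '' K)).toReal := by
  let πx : ℝ × (ℝ × ℝ) →L[ℝ] ℝ × ℝ := (ContinuousLinearMap.fst ℝ ℝ (ℝ × ℝ)).prod
    ((ContinuousLinearMap.fst ℝ ℝ ℝ).comp (ContinuousLinearMap.snd ℝ ℝ (ℝ × ℝ)))
  let πy : ℝ × (ℝ × ℝ) →L[ℝ] ℝ × ℝ := (ContinuousLinearMap.fst ℝ ℝ (ℝ × ℝ)).prod
    ((ContinuousLinearMap.snd ℝ ℝ ℝ).comp (ContinuousLinearMap.snd ℝ ℝ (ℝ × ℝ)))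
  have hπx : (fun p : ℝ × (ℝ × ℝ) => (p.1, p.2.1)) = πx := by funext p; rfl
  have hπy : (fun p : ℝ × (ℝ × ℝ) => (p.1, p.2.2)) = πy := by funext p; rfl
  have hsx : Function.Surjective πx := fun q => ⟨(q.1, (q.2, 0)), rfl⟩
  have hsy : Function.Surjective πy := fun q => ⟨(q.1, (0, q.2)), rfl⟩
  set Px : Set (ℝ × ℝ) := (fun p : ℝ × (ℝ × ℝ) => (p.1, p.2.1)) '' K with hPx
  set Py : Set (ℝ × ℝ) := (fun p : ℝ × (ℝ × ℝ) => (p.1, p.2.2)) '' K with hPy
  have hPxc : IsCompact Px := hKc.image (by fun_prop)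
  have hPyc : IsCompact Py := hKc.image (by fun_prop)
  have hPxv : Convex ℝ Px := by rw [hPx, hπx]; exact hK.linear_image πx.toLinearMap
  have hPyv : Convex ℝ Py := by rw [hPy, hπy]; exact hK.linear_image πy.toLinearMap
  have hPxi : (interior Px).Nonempty := by
    obtain ⟨p, hp⟩ := hKi
    have ho := (πx.isOpenMap hsx) _ (isOpen_interior (s := K))
    refine ⟨πx p, (interior_maximal ?_ ho) (mem_image_of_mem _ hp)⟩
    rw [hPx, hπx]
    exact image_mono interior_subset
  have hPyi : (interior Py).Nonempty := by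
    obtain ⟨p, hp⟩ := hKi
    have ho := (πy.isOpenMap hsy) _ (isOpen_interior (s := K))
    refine ⟨πy p, (interior_maximal ?_ ho) (mem_image_of_mem _ hp)⟩
    rw [hPy, hπy]
    exact image_mono interior_subset
  -- heights
  have hne : K.Nonempty := hKi.mono interior_subset
  obtain ⟨a, b, hab⟩ : ∃ a b : ℝ, Prod.fst '' K = Icc a b := by
    have hc : IsCompact (Prod.fst '' K) := hKc.image continuous_fst
    have hconn : IsConnected (Prod.fst '' K) :=
      (hK.isConnected hne).image _ continuous_fst.continuousOn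
    exact ⟨_, _, eq_Icc_of_connected_compact hconn hc⟩
  have habx : Prod.fst '' Px = Icc a b := by
    rw [hPx, image_image]; exact hab
  have haby : Prod.fst '' Py = Icc a b := by
    rw [hPy, image_image]; exact hab
  obtain ⟨hlt, hcx, hnx, hsecx, hAx, hAx0⟩ := width Px hPxv hPxc hPxi a b habx
  obtain ⟨_, hcy, hny, hsecy, hAy, hAy0⟩ := width Py hPyv hPyc hPyi a b haby
  obtain ⟨hbi, hble⟩ := core_aux Px hPxc B hB hBf
  obtain ⟨hci, hcle⟩ := core_aux Py hPyc C hC hCf
  set fb : ℝ → ℝ := fun h => (volume (sec (B ∩ Px) h)).toReal with hfb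
  set fc : ℝ → ℝ := fun h => (volume (sec (C ∩ Py) h)).toReal with hfc
  set A := (volume Px).toReal with hA
  set A' := (volume Py).toReal with hA'
  have hba : 0 < b - a := by linarith
  -- pointwise inequality
  have hpt : ∀ h ∈ Ioo a b, 2 * min (h - a) (b - h) / (b - a) ^ 2 ≤ fb h / A + fc h / A' := by
    intro h hh
    obtain ⟨x0, x1, hx01, hsx', hlx⟩ := hsecx h hh
    obtain ⟨y0, y1, hy01, hsy', hly⟩ := hsecy h hh
    have hhI : h ∈ Icc a b := Ioo_subset_Icc_self hh
    have hKh1 : Prod.fst '' {q : ℝ × ℝ | (h, q) ∈ K} = Icc x0 x1 := by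
      rw [← hsx']
      ext x
      constructor
      · rintro ⟨q, hq, rfl⟩
        exact ⟨(h, q), hq, rfl⟩
      · rintro ⟨p, hp, hpe⟩
        rw [Prod.mk.injEq] at hpe
        refine ⟨p.2, ?_, hpe.2⟩
        change (h, p.2) ∈ K
        rw [← hpe.1]
        exact hp
    have hKh2 : Prod.snd '' {q : ℝ × ℝ | (h, q) ∈ K} = Icc y0 y1 := by
      rw [← hsy']
      ext x
      constructor
      · rintro ⟨q, hq, rfl⟩
        exact ⟨(h, q), hq, rfl⟩
      · rintro ⟨p, hp, hpe⟩
        rw [Prod.mk.injEq] at hpe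
        refine ⟨p.2, ?_, hpe.2⟩
        change (h, p.2) ∈ K
        rw [← hpe.1]
        exact hp
    have hKhc : IsCompact {q : ℝ × ℝ | (h, q) ∈ K} := by
      have h1 : IsCompact (K ∩ {p | p.1 = h}) :=
        hKc.inter_right (isClosed_eq continuous_fst continuous_const)
      have h2 := h1.image continuous_snd
      convert h2 using 1
      ext q
      constructor
      · intro hq
        exact ⟨(h, q), ⟨hq, rfl⟩, rfl⟩
      · rintro ⟨p, ⟨hp, hp1⟩, rfl⟩
        change (h, p.2) ∈ K
        have : p = (h, p.2) := Prod.ext hp1 rfl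
        rw [← this]
        exact hp
    have hKhv : Convex ℝ {q : ℝ × ℝ | (h, q) ∈ K} := by
      intro q hq q' hq' u v hu hv huv
      have := hK hq hq' hu hv huv
      change (h, u • q + v • q') ∈ K
      convert this using 1
      ext
      · simp only [Prod.fst_add, Prod.smul_fst, smul_eq_mul]
        rw [← add_mul, huv, one_mul]
      · rfl
      · rfl
    have hpl := planar _ hKhv hKhc x0 x1 y0 y1 hx01 hy01 hKh1 hKh2 (sec B h) (sec C h)
      (measurable_prodMk_left hB) (measurable_prodMk_left hC) (fun q hq => hcov (h, q) hq)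
    have e1 : (volume (sec B h ∩ Icc x0 x1)).toReal = fb h := by
      rw [← hsx']; rfl
    have e2 : (volume (sec C h ∩ Icc y0 y1)).toReal = fc h := by
      rw [← hsy']; rfl
    rw [e1, e2, ← hlx, ← hly] at hpl
    have hlx0 : 0 < len Px h := by rw [hlx]; linarith
    have hly0 : 0 < len Py h := by rw [hly]; linarith
    have c1 := conc a b hlt (len Px) hcx hnx h hhI
    have c2 := conc a b hlt (len Py) hcy hny h hhI
    rw [← hAx] at c1
    rw [← hAy] at c2
    set m := 2 * min (h - a) (b - h) / (b - a) ^ 2 with hm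
    have hm0 : 0 ≤ m := by
      have h1 : 0 ≤ min (h - a) (b - h) := le_min (by linarith [hh.1]) (by linarith [hh.2])
      positivity
    have hfb0 : 0 ≤ fb h := ENNReal.toReal_nonneg
    have hfc0 : 0 ≤ fc h := ENNReal.toReal_nonneg
    have d1 : m * (fb h / len Px h) ≤ fb h / A := by
      rw [mul_div_assoc', div_le_div_iff₀ hlx0 hAx0]
      nlinarith
    have d2 : m * (fc h / len Py h) ≤ fc h / A' := by
      rw [mul_div_assoc', div_le_div_iff₀ hly0 hAy0]
      nlinarith
    calc m = m * 1 := (mul_one m).symm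
      _ ≤ m * (fb h / len Px h + fc h / len Py h) := mul_le_mul_of_nonneg_left hpl hm0
      _ = m * (fb h / len Px h) + m * (fc h / len Py h) := mul_add _ _ _
      _ ≤ _ := add_le_add d1 d2
  have hint : Integrable (fun h => fb h / A + fc h / A') :=
    (hbi.div_const A).add (hci.div_const A')
  calc (1 : ℝ) / 2 = ∫ x in Icc a b, 2 * min (x - a) (b - x) / (b - a) ^ 2 := (int_min a b hlt).symm
    _ = ∫ x in Ioo a b, 2 * min (x - a) (b - x) / (b - a) ^ 2 := integral_Icc_eq_integral_Ioo
    _ ≤ ∫ x in Ioo a b, (fb x / A + fc x / A') := by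
        apply setIntegral_mono_on _ hint.integrableOn measurableSet_Ioo hpt
        apply IntegrableOn.mono_set _ Ioo_subset_Icc_self
        apply Continuous.integrableOn_Icc
        fun_prop
    _ ≤ ∫ x, (fb x / A + fc x / A') := by
        apply setIntegral_le_integral hint
        filter_upwards with x
        have hfb0 : 0 ≤ fb x := ENNReal.toReal_nonneg
        have hfc0 : 0 ≤ fc x := ENNReal.toReal_nonneg
        change 0 ≤ fb x / A + fc x / A'
        positivity
    _ = (∫ x, fb x) / A + (∫ x, fc x) / A' := by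
        rw [integral_add (hbi.div_const A) (hci.div_const A'), integral_div, integral_div]
    _ ≤ (volume B).toReal / A + (volume C).toReal / A' := by
        gcongr

end P243
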