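import Mathlib
import Vale.Agent.P243.Core

namespace P243

open MeasureTheory Set

/-- Euclidean space -/
abbrev E3 : Type := EuclideanSpace ℝ (Fin 3)

/-- coordinates of the orthogonal projection of `x` to the plane with orthonormal basis `e 0, e 1` -/
noncomputable def pr (e : Fin 2 → E3) (x : E3) : ℝ × ℝ := (inner ℝ (e 0) x, inner ℝ (e 1) x)

/-- plane rotation -/
theorem rot_plane (a b : ℝ) (hab : a ^ 2 + b ^ 2 = 1) :
    ∃ Φ : ℝ × ℝ ≃ᵐ ℝ × ℝ, MeasurePreserving Φ volume volume ∧
      ∀ p, Φ p = (a * p.1 + b * p.2, -b * p.1 + a * p.2) := by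
  let Φ : ℝ × ℝ ≃ᵐ ℝ × ℝ :=
    { toFun := fun p => (a * p.1 + b * p.2, -b * p.1 + a * p.2)
      invFun := fun p => (a * p.1 - b * p.2, b * p.1 + a * p.2)
      left_inv := fun p => by
        ext
        · simp only; linear_combination p.1 * hab
        · simp only; linear_combination p.2 * hab
      right_inv := fun p => by
        ext
        · simp only; linear_combination p.1 * hab
        · simp only; linear_combination p.2 * hab
      measurable_toFun := by
        change Measurable fun p : ℝ × ℝ => (a * p.1 + b * p.2, -b * p.1 + a * p.2)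
        fun_prop
      measurable_invFun := by
        change Measurable fun p : ℝ × ℝ => (a * p.1 - b * p.2, b * p.1 + a * p.2)
        fun_prop }
  refine ⟨Φ, ⟨Φ.measurable, ?_⟩, fun p => rfl⟩
  set M : (ℝ × ℝ) →ₗ[ℝ] (ℝ × ℝ) :=
    Matrix.toLin (Module.Basis.finTwoProd ℝ) (Module.Basis.finTwoProd ℝ) !![a, b; -b, a] with hM
  have hMapp : ∀ p, M p = (a * p.1 + b * p.2, -b * p.1 + a * p.2) := fun p =>
    Matrix.toLin_finTwoProd_apply a b (-b) a p
  have hdet : LinearMap.det M = 1 := by
    rw [hM, LinearMap.det_toLin, Matrix.det_fin_two_of]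
    linarith
  have hfun : (Φ : ℝ × ℝ → ℝ × ℝ) = M := by
    funext p
    rw [hMapp]
    rfl
  rw [hfun, Measure.map_linearMap_addHaar_eq_smul_addHaar volume (by rw [hdet]; norm_num), hdet]
  simp

/-- rotating a frame inside its plane -/
theorem rot (e : Fin 2 → E3) (he : Orthonormal ℝ e) (w : E3) (hw : ‖w‖ = 1)
    (hwe : w ∈ Submodule.span ℝ (range e)) :
    ∃ e' : E3, Orthonormal ℝ ![w, e'] ∧ Submodule.span ℝ (range ![w, e']) = Submodule.span ℝ (range e) ∧
      ∃ Φ : ℝ × ℝ ≃ᵐ ℝ × ℝ, MeasurePreserving Φ volume volume ∧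
        ∀ x, pr ![w, e'] x = Φ (pr e x) := by
  have hr : range e = {e 0, e 1} := by
    ext x
    simp only [mem_range, mem_insert_iff, mem_singleton_iff]
    constructor
    · rintro ⟨i, rfl⟩
      fin_cases i <;> simp
    · rintro (h | h)
      · exact ⟨0, h.symm⟩
      · exact ⟨1, h.symm⟩
  rw [hr, Submodule.mem_span_pair] at hwe
  obtain ⟨a, b, hwab⟩ := hwe
  have h00 : inner ℝ (e 0) (e 0) = (1 : ℝ) := by
    rw [real_inner_self_eq_norm_sq, he.1 0]; norm_num
  have h11 : inner ℝ (e 1) (e 1) = (1 : ℝ) := by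
    rw [real_inner_self_eq_norm_sq, he.1 1]; norm_num
  have h01 : inner ℝ (e 0) (e 1) = (0 : ℝ) := he.2 (by decide)
  have h10 : inner ℝ (e 1) (e 0) = (0 : ℝ) := he.2 (by decide)
  have hab : a ^ 2 + b ^ 2 = 1 := by
    have h1 : inner ℝ w w = (1 : ℝ) := by rw [real_inner_self_eq_norm_sq, hw]; norm_num
    rw [← hwab] at h1
    simp only [inner_add_left, inner_add_right, real_inner_smul_left, real_inner_smul_right,
      h00, h11, h01, h10] at h1
    linarith
  have hab0 : w = a • e 0 + b • e 1 := hwab.symm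
  obtain ⟨Φ, hΦ, hΦe⟩ := rot_plane a b hab
  refine ⟨(-b) • e 0 + a • e 1, ?_, ?_, Φ, hΦ, ?_⟩
  · have i00 : inner ℝ w w = (1 : ℝ) := by rw [real_inner_self_eq_norm_sq, hw]; norm_num
    have i01 : inner ℝ w ((-b) • e 0 + a • e 1) = (0 : ℝ) := by
      rw [hab0]
      simp only [inner_add_left, inner_add_right, real_inner_smul_left, real_inner_smul_right,
        h00, h11, h01, h10]
      ring
    have i10 : inner ℝ ((-b) • e 0 + a • e 1) w = (0 : ℝ) := by
      rw [real_inner_comm]; exact i01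
    have i11 : inner ℝ ((-b) • e 0 + a • e 1) ((-b) • e 0 + a • e 1) = (1 : ℝ) := by
      simp only [inner_add_left, inner_add_right, real_inner_smul_left, real_inner_smul_right,
        h00, h11, h01, h10]
      linear_combination hab
    rw [orthonormal_iff_ite]
    intro i j
    fin_cases i <;> fin_cases j
    · exact i00.trans (by simp)
    · exact i01.trans (by simp)
    · exact i10.trans (by simp)
    · exact i11.trans (by simp)
  · apply le_antisymm
    · rw [Submodule.span_le]
      rintro x ⟨i, rfl⟩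
      rw [hr]
      fin_cases i
      · exact Submodule.mem_span_pair.2 ⟨a, b, hwab⟩
      · exact Submodule.mem_span_pair.2 ⟨-b, a, rfl⟩
    · rw [hr, Submodule.span_le]
      have hr2 : range ![w, (-b) • e 0 + a • e 1] = {w, (-b) • e 0 + a • e 1} := by
        simp [Matrix.range_cons, Matrix.range_empty, Set.pair_comm]
      rw [hr2]
      rintro x (rfl | rfl)
      · refine Submodule.mem_span_pair.2 ⟨a, -b, ?_⟩
        rw [hab0]
        have : a • (a • e 0 + b • e 1) + -b • (-b • e 0 + a • e 1) = (a ^ 2 + b ^ 2) • e 0 := by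
          module
        rw [this, hab, one_smul]
      · refine Submodule.mem_span_pair.2 ⟨b, a, ?_⟩
        rw [hab0]
        have : b • (a • e 0 + b • e 1) + a • (-b • e 0 + a • e 1) = (a ^ 2 + b ^ 2) • e 1 := by
          module
        rw [this, hab, one_smul]
  · intro x
    rw [hΦe]
    simp [pr, hab0, inner_add_left, real_inner_smul_left]

theorem vol_image {Φ : ℝ × ℝ ≃ᵐ ℝ × ℝ} (hΦ : MeasurePreserving Φ volume volume)
    (S : Set (ℝ × ℝ)) : volume (Φ '' S) = volume S := by
  rw [Φ.image_eq_preimage_symm]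
  exact (hΦ.symm Φ).measure_preimage_equiv S

theorem exists_common (P Q : Submodule ℝ E3) (hP : Module.finrank ℝ P = 2)
    (hQ : Module.finrank ℝ Q = 2) : ∃ w : E3, ‖w‖ = 1 ∧ w ∈ P ∧ w ∈ Q := by
  have h1 := Submodule.finrank_sup_add_finrank_inf_eq P Q
  have h2 : Module.finrank ℝ (P ⊔ Q : Submodule ℝ E3) ≤ 3 := by
    have := Submodule.finrank_le (P ⊔ Q)
    simpa using this
  have h3 : 0 < Module.finrank ℝ (P ⊓ Q : Submodule ℝ E3) := by omega
  haveI : Nontrivial (P ⊓ Q : Submodule ℝ E3) := Module.finrank_pos_iff.1 h3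
  obtain ⟨x, hx⟩ := exists_ne (0 : (P ⊓ Q : Submodule ℝ E3))
  have hx0 : (x : E3) ≠ 0 := by simpa using hx
  refine ⟨(‖(x : E3)‖)⁻¹ • (x : E3), ?_, ?_, ?_⟩
  · rw [norm_smul, norm_inv, norm_norm, inv_mul_cancel₀ (norm_ne_zero_iff.2 hx0)]
  · exact P.smul_mem _ x.2.1
  · exact Q.smul_mem _ x.2.2

theorem finrank_span_frame {e : Fin 2 → E3} (he : Orthonormal ℝ e) :
    Module.finrank ℝ (Submodule.span ℝ (range e)) = 2 := by
  rw [finrank_span_eq_card he.linearIndependent]
  simp

theorem sup_top {P Q : Submodule ℝ E3} (hP : Module.finrank ℝ P = 2)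
    (hQ : Module.finrank ℝ Q = 2) (hPQ : P ≠ Q) : P ⊔ Q = ⊤ := by
  apply Submodule.eq_top_of_finrank_eq
  have h2 : Module.finrank ℝ (P ⊔ Q : Submodule ℝ E3) ≤ 3 := by
    have := Submodule.finrank_le (P ⊔ Q)
    simpa using this
  have h3 : 2 ≤ Module.finrank ℝ (P ⊔ Q : Submodule ℝ E3) := by
    have := Submodule.finrank_mono (le_sup_left : P ≤ P ⊔ Q)
    omega
  have h4 : Module.finrank ℝ (P ⊔ Q : Submodule ℝ E3) ≠ 2 := by
    intro h
    apply hPQ
    have a1 : P = P ⊔ Q := Submodule.eq_of_le_of_finrank_le le_sup_left (by omega)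
    have a2 : Q = P ⊔ Q := Submodule.eq_of_le_of_finrank_le le_sup_right (by omega)
    rw [a1, ← a2]
  simp only [finrank_euclideanSpace, Fintype.card_fin]
  omega

/-- two cylinders -/
theorem two (K : Set E3) (hK : Convex ℝ K) (hKc : IsCompact K) (hKi : (interior K).Nonempty)
    (e f : Fin 2 → E3) (he : Orthonormal ℝ e) (hf : Orthonormal ℝ f)
    (hef : Submodule.span ℝ (range e) ≠ Submodule.span ℝ (range f))
    (B C : Set (ℝ × ℝ)) (hB : MeasurableSet B) (hC : MeasurableSet C) (hBf : volume B ≠ ⊤)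
    (hCf : volume C ≠ ⊤) (hcov : ∀ x ∈ K, pr e x ∈ B ∨ pr f x ∈ C) :
    1 / 2 ≤ (volume B).toReal / (volume (pr e '' K)).toReal
      + (volume C).toReal / (volume (pr f '' K)).toReal := by
  obtain ⟨w, hw, hwe, hwf⟩ := exists_common _ _ (finrank_span_frame he) (finrank_span_frame hf)
  obtain ⟨e', he', hspe, Φ, hΦ, hΦe⟩ := rot e he w hw hwe
  obtain ⟨f', hf', hspf, Ψ, hΨ, hΨf⟩ := rot f hf w hw hwf
  have htop := sup_top (finrank_span_frame he) (finrank_span_frame hf) hef
  -- the linear map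
  let T : E3 →ₗ[ℝ] ℝ × (ℝ × ℝ) :=
    { toFun := fun x => (inner ℝ w x, (inner ℝ e' x, inner ℝ f' x))
      map_add' := fun x y => by simp [inner_add_right]
      map_smul' := fun c x => by simp [real_inner_smul_right] }
  have hTapp : ∀ x, T x = (inner ℝ w x, (inner ℝ e' x, inner ℝ f' x)) := fun x => rfl
  have hinj : Function.Injective T := by
    rw [← LinearMap.ker_eq_bot, LinearMap.ker_eq_bot']
    intro x hx
    rw [hTapp] at hx
    simp only [Prod.mk_eq_zero] at hx
    obtain ⟨h1, h2, h3⟩ := hx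
    have hre : range ![w, e'] = {w, e'} := by
      simp [Matrix.range_cons, Matrix.range_empty, Set.pair_comm]
    have hrf : range ![w, f'] = {w, f'} := by
      simp [Matrix.range_cons, Matrix.range_empty, Set.pair_comm]
    have hP : ∀ y ∈ Submodule.span ℝ (range e), inner ℝ y x = (0 : ℝ) := by
      intro y hy
      rw [← hspe, hre, Submodule.mem_span_pair] at hy
      obtain ⟨a, b, rfl⟩ := hy
      simp [inner_add_left, real_inner_smul_left, h1, h2]
    have hQ : ∀ y ∈ Submodule.span ℝ (range f), inner ℝ y x = (0 : ℝ) := by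
      intro y hy
      rw [← hspf, hrf, Submodule.mem_span_pair] at hy
      obtain ⟨a, b, rfl⟩ := hy
      simp [inner_add_left, real_inner_smul_left, h1, h3]
    have hxtop : x ∈ Submodule.span ℝ (range e) ⊔ Submodule.span ℝ (range f) := by
      rw [htop]; trivial
    obtain ⟨y, hy, z, hz, hyz⟩ := Submodule.mem_sup.1 hxtop
    have : inner ℝ x x = (0 : ℝ) := by
      nth_rewrite 1 [← hyz]
      rw [inner_add_left, hP y hy, hQ z hz, add_zero]
    exact inner_self_eq_zero.1 this
  let Te : E3 ≃ₗ[ℝ] ℝ × (ℝ × ℝ) := LinearMap.linearEquivOfInjective T hinj (by simp)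
  have hTe : ∀ x, Te x = (inner ℝ w x, (inner ℝ e' x, inner ℝ f' x)) := fun x => rfl
  let Tc : E3 ≃L[ℝ] ℝ × (ℝ × ℝ) := Te.toContinuousLinearEquiv
  have hTc : ∀ x, Tc x = (inner ℝ w x, (inner ℝ e' x, inner ℝ f' x)) := fun x => rfl
  have hpe : ∀ x, ((Tc x).1, (Tc x).2.1) = Φ (pr e x) := by
    intro x
    rw [← hΦe, hTc]
    rfl
  have hpf : ∀ x, ((Tc x).1, (Tc x).2.2) = Ψ (pr f x) := by
    intro x
    rw [← hΨf, hTc]
    rfl
  have hcore := core (Tc '' K) (hK.is_linear_image Tc.toLinearMap.isLinear)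
    (hKc.image Tc.continuous)
    (by
      have h := Tc.toHomeomorph.image_interior K
      have h2 : (Tc '' (interior K)).Nonempty := hKi.image _
      have h3 : (Tc.toHomeomorph '' (interior K)) = Tc '' (interior K) := rfl
      have h4 : (Tc.toHomeomorph '' K) = Tc '' K := rfl
      rw [h3, h4] at h
      rwa [← h])
    (Φ '' B) (Ψ '' C) (Φ.measurableEmbedding.measurableSet_image.2 hB)
    (Ψ.measurableEmbedding.measurableSet_image.2 hC)
    (by rw [vol_image hΦ]; exact hBf) (by rw [vol_image hΨ]; exact hCf)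
    (by
      rintro _ ⟨x, hx, rfl⟩
      rw [hpe, hpf]
      rcases hcov x hx with h | h
      · exact Or.inl (mem_image_of_mem _ h)
      · exact Or.inr (mem_image_of_mem _ h))
  have e1 : (fun p : ℝ × (ℝ × ℝ) => (p.1, p.2.1)) '' (Tc '' K) = Φ '' (pr e '' K) := by
    rw [image_image, image_image]
    exact image_congr fun x _ => hpe x
  have e2 : (fun p : ℝ × (ℝ × ℝ) => (p.1, p.2.2)) '' (Tc '' K) = Ψ '' (pr f '' K) := by
    rw [image_image, image_image]
    exact image_congr fun x _ => hpf x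
  rw [e1, e2, vol_image hΦ, vol_image hΦ, vol_image hΨ, vol_image hΨ] at hcore
  exact hcore

end P243
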