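import Mathlib

namespace P243

open MeasureTheory Set

/-- a rotation of the plane -/
noncomputable def rotEquiv (a b : ℝ) (h : a ^ 2 + b ^ 2 = 1) : ℝ × ℝ ≃ᵐ ℝ × ℝ where
  toFun p := (a * p.1 + b * p.2, -b * p.1 + a * p.2)
  invFun p := (a * p.1 - b * p.2, b * p.1 + a * p.2)
  left_inv := by
    rintro ⟨x, y⟩
    ext
    · show a * (a * x + b * y) - b * (-b * x + a * y) = x
      linear_combination x * h
    · show b * (a * x + b * y) + a * (-b * x + a * y) = y
      linear_combination y * h
  right_inv := by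
    rintro ⟨x, y⟩
    ext
    · show a * (a * x - b * y) + b * (b * x + a * y) = x
      linear_combination x * h
    · show -b * (a * x - b * y) + a * (b * x + a * y) = y
      linear_combination y * h
  measurable_toFun := by
    show Measurable (fun p : ℝ × ℝ => (a * p.1 + b * p.2, -b * p.1 + a * p.2))
    fun_prop
  measurable_invFun := by
    show Measurable (fun p : ℝ × ℝ => (a * p.1 - b * p.2, b * p.1 + a * p.2))
    fun_prop

theorem rotEquiv_apply (a b : ℝ) (h : a ^ 2 + b ^ 2 = 1) (p : ℝ × ℝ) :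
    rotEquiv a b h p = (a * p.1 + b * p.2, -b * p.1 + a * p.2) := rfl

theorem rotEquiv_mp (a b : ℝ) (h : a ^ 2 + b ^ 2 = 1) :
    MeasurePreserving (rotEquiv a b h) volume volume := by
  refine ⟨(rotEquiv a b h).measurable, ?_⟩
  let f : ℝ × ℝ →ₗ[ℝ] ℝ × ℝ :=
    Matrix.toLin (Module.Basis.finTwoProd ℝ) (Module.Basis.finTwoProd ℝ) !![a, b; -b, a]
  have hf : ∀ p, f p = rotEquiv a b h p := by
    rintro ⟨x, y⟩
    rw [rotEquiv_apply]
    show (Matrix.toLin (Module.Basis.finTwoProd ℝ) (Module.Basis.finTwoProd ℝ) !![a, b; -b, a]) (x, y) = _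
    rw [Matrix.toLin_finTwoProd]
    simp
  have hdet : LinearMap.det f = 1 := by
    show LinearMap.det (Matrix.toLin (Module.Basis.finTwoProd ℝ) (Module.Basis.finTwoProd ℝ)
      !![a, b; -b, a]) = 1
    rw [LinearMap.det_toLin, Matrix.det_fin_two_of]
    linear_combination h
  have h1 := MeasureTheory.Measure.map_linearMap_addHaar_eq_smul_addHaar
    (volume : Measure (ℝ × ℝ)) (f := f) (by rw [hdet]; norm_num)
  have h2 : (rotEquiv a b h : ℝ × ℝ → ℝ × ℝ) = f := by
    funext p
    exact (hf p).symm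
  rw [h2, h1, hdet]
  simp

/-- rotating a frame inside its plane -/
theorem rot_aux {E : Type*} [NormedAddCommGroup E] [InnerProductSpace ℝ E] (e : Fin 2 → E)
    (he : Orthonormal ℝ e) (w : E) (hw : ‖w‖ = 1) (hwe : w ∈ Submodule.span ℝ (range e)) :
    ∃ e' : E, Orthonormal ℝ ![w, e'] ∧
      Submodule.span ℝ (range ![w, e']) = Submodule.span ℝ (range e) ∧
      ∃ Φ : ℝ × ℝ ≃ᵐ ℝ × ℝ, MeasurePreserving Φ volume volume ∧
        ∀ x, ((inner ℝ w x, inner ℝ e' x) : ℝ × ℝ) = Φ (inner ℝ (e 0) x, inner ℝ (e 1) x) := by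
  obtain ⟨c, hc⟩ := (Submodule.mem_span_range_iff_exists_fun ℝ).mp hwe
  rw [Fin.sum_univ_two] at hc
  set a := c 0 with ha
  set b := c 1 with hb
  have h00 : inner ℝ (e 0) (e 0) = (1 : ℝ) := by
    rw [real_inner_self_eq_norm_sq, he.1 0]; norm_num
  have h11 : inner ℝ (e 1) (e 1) = (1 : ℝ) := by
    rw [real_inner_self_eq_norm_sq, he.1 1]; norm_num
  have h01 : inner ℝ (e 0) (e 1) = (0 : ℝ) := he.2 (by decide)
  have h10 : inner ℝ (e 1) (e 0) = (0 : ℝ) := he.2 (by decide)
  have hab : a ^ 2 + b ^ 2 = 1 := by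
    have h1 : inner ℝ w w = (1 : ℝ) := by rw [real_inner_self_eq_norm_sq, hw]; norm_num
    rw [← hc] at h1
    simp only [inner_add_left, inner_add_right, real_inner_smul_left, real_inner_smul_right,
      h00, h11, h01, h10] at h1
    linear_combination h1
  have hww : inner ℝ w w = (1 : ℝ) := by rw [real_inner_self_eq_norm_sq, hw]; norm_num
  let e' : E := (-b) • e 0 + a • e 1
  have he'e' : inner ℝ e' e' = (1 : ℝ) := by
    show inner ℝ ((-b) • e 0 + a • e 1) ((-b) • e 0 + a • e 1) = (1 : ℝ)
    simp only [inner_add_left, inner_add_right, real_inner_smul_left, real_inner_smul_right,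
      h00, h11, h01, h10]
    linear_combination hab
  have hwe' : inner ℝ w e' = (0 : ℝ) := by
    show inner ℝ w ((-b) • e 0 + a • e 1) = (0 : ℝ)
    rw [← hc]
    simp only [inner_add_left, inner_add_right, real_inner_smul_left, real_inner_smul_right,
      h00, h11, h01, h10]
    ring
  have hne' : ‖e'‖ = 1 := by
    have h1 : ‖e'‖ ^ 2 = 1 := by rw [← real_inner_self_eq_norm_sq]; exact he'e'
    have h2 := norm_nonneg e'
    nlinarith
  refine ⟨e', ?_, ?_, rotEquiv a b hab, rotEquiv_mp a b hab, ?_⟩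
  · constructor
    · intro i
      fin_cases i
      · exact hw
      · exact hne'
    · intro i j hij
      fin_cases i <;> fin_cases j
      · exact absurd rfl hij
      · exact hwe'
      · show inner ℝ e' w = (0 : ℝ)
        rw [real_inner_comm]; exact hwe'
      · exact absurd rfl hij
  · have hr0 : e 0 ∈ Submodule.span ℝ (range e) := Submodule.subset_span ⟨0, rfl⟩
    have hr1 : e 1 ∈ Submodule.span ℝ (range e) := Submodule.subset_span ⟨1, rfl⟩
    have hs0 : w ∈ Submodule.span ℝ (range ![w, e']) := Submodule.subset_span ⟨0, rfl⟩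
    have hs1 : e' ∈ Submodule.span ℝ (range ![w, e']) := Submodule.subset_span ⟨1, rfl⟩
    apply le_antisymm
    · rw [Submodule.span_le]
      rintro _ ⟨i, rfl⟩
      fin_cases i
      · exact hwe
      · exact Submodule.add_mem _ (Submodule.smul_mem _ _ hr0) (Submodule.smul_mem _ _ hr1)
    · rw [Submodule.span_le]
      rintro _ ⟨i, rfl⟩
      fin_cases i
      · show e 0 ∈ Submodule.span ℝ (range ![w, e'])
        have : e 0 = a • w + (-b) • e' := by
          show e 0 = a • w + (-b) • ((-b) • e 0 + a • e 1)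
          rw [← hc]
          have h3 : a • (a • e 0 + b • e 1) + (-b) • ((-b) • e 0 + a • e 1)
              = (a ^ 2 + b ^ 2) • e 0 := by module
          rw [h3, hab, one_smul]
        rw [this]
        exact Submodule.add_mem _ (Submodule.smul_mem _ _ hs0) (Submodule.smul_mem _ _ hs1)
      · show e 1 ∈ Submodule.span ℝ (range ![w, e'])
        have : e 1 = b • w + a • e' := by
          show e 1 = b • w + a • ((-b) • e 0 + a • e 1)
          rw [← hc]
          have h3 : b • (a • e 0 + b • e 1) + a • ((-b) • e 0 + a • e 1)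
              = (a ^ 2 + b ^ 2) • e 1 := by module
          rw [h3, hab, one_smul]
        rw [this]
        exact Submodule.add_mem _ (Submodule.smul_mem _ _ hs0) (Submodule.smul_mem _ _ hs1)
  · intro x
    rw [rotEquiv_apply]
    ext
    · show inner ℝ w x = a * inner ℝ (e 0) x + b * inner ℝ (e 1) x
      rw [← hc]
      simp only [inner_add_left, real_inner_smul_left]
    · show inner ℝ ((-b) • e 0 + a • e 1) x = -b * inner ℝ (e 0) x + a * inner ℝ (e 1) x
      simp only [inner_add_left, real_inner_smul_left]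

end P243
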